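/-
P235, line HUB (helper15): random functions which are bounded pointwise by a Lipschitz function.
-/
import Vale.Agent.P235.Hub.Defs

namespace Vale.Agent.P235.Hub

open Vale.Agent.P235 Vale.Agent.P235.R2.H598

/-- joint sign fields for finitely many scales -/
theorem joint {V : Type} {ρ : V → V → ℝ} (hρ : IsL1 ρ) (J : Finset ℤ) :
    ∃ (Ω : Type) (_ : Fintype Ω) (p : Ω → ℝ) (S : ℤ → Ω → V → Bool), (∀ ω, 0 ≤ p ω) ∧
      ∑ ω, p ω = 1 ∧ ∀ j ∈ J, ∀ x y, Real.exp (-(ρ x y / 2 ^ j)) =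
        ∑ ω, p ω * (if S j ω x = S j ω y then 1 else -1) := by
  classical
  induction J using Finset.induction_on with
  | empty =>
    exact ⟨Unit, inferInstance, fun _ => 1, fun _ _ _ => false, fun _ => zero_le_one, by simp,
      by simp⟩
  | insert j J hj ih =>
    obtain ⟨Ω, _, p, S, hp, h1, hS⟩ := ih
    obtain ⟨κ, _, q, s, hq, h1', hE⟩ := hρ.signRep (τ := (2 : ℝ) ^ j) (by positivity)
    refine ⟨Ω × κ, inferInstance, fun w => p w.1 * q w.2,
      fun i w x => if i = j then s w.2 x else S i w.1 x, fun w => mul_nonneg (hp _) (hq _), ?_, ?_⟩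
    · rw [Fintype.sum_prod_type]
      simp only [← Finset.mul_sum, h1', mul_one, h1]
    · intro i hi x y
      rw [Fintype.sum_prod_type]
      by_cases hij : i = j
      · subst hij
        have e : Real.exp (-(ρ x y / 2 ^ i)) = ∑ k, q k * (if s k x = s k y then 1 else -1) :=
          hE x y
        rw [e]
        have h2 : ∀ w : Ω, ∑ k : κ, p (w, k).1 * q (w, k).2 *
            (if (if i = i then s (w, k).2 x else S i (w, k).1 x) =
              (if i = i then s (w, k).2 y else S i (w, k).1 y) then (1 : ℝ) else -1) =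
            p w * ∑ k, q k * (if s k x = s k y then 1 else -1) := by
          intro w
          rw [Finset.mul_sum]
          refine Finset.sum_congr rfl fun k _ => ?_
          simp only [if_true]
          ring
        rw [Finset.sum_congr rfl fun w _ => h2 w, ← Finset.sum_mul, h1, one_mul]
      · have hi' : i ∈ J := (Finset.mem_insert.1 hi).resolve_left hij
        rw [hS i hi' x y]
        refine Finset.sum_congr rfl fun w _ => ?_
        have h2 : ∀ k : κ, p (w, k).1 * q (w, k).2 *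
            (if (if i = j then s (w, k).2 x else S i (w, k).1 x) =
              (if i = j then s (w, k).2 y else S i (w, k).1 y) then (1 : ℝ) else -1) =
            (p w * (if S i w x = S i w y then 1 else -1)) * q k := by
          intro k
          simp only [if_neg hij]
          ring
        rw [Finset.sum_congr rfl fun k _ => h2 k, ← Finset.mul_sum, h1', mul_one]

/-- amplitude -/
noncomputable def amp (j : ℤ) (t : ℝ) : ℝ := 1 / 2 * (2 ^ j * prof (t / 2 ^ j))

theorem amp_nonneg (j : ℤ) (t : ℝ) : 0 ≤ amp j t := by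
  have := prof_nonneg (t / 2 ^ j)
  unfold amp; positivity

theorem amp_le {j : ℤ} {t : ℝ} (ht : 0 ≤ t) : amp j t ≤ t := by
  have hj : (0 : ℝ) < 2 ^ j := by positivity
  have h1 : prof (t / 2 ^ j) ≤ 2 * (t / 2 ^ j) := by
    have h0 : 0 ≤ t / 2 ^ j := by positivity
    unfold prof
    refine max_le (by positivity) ((min_le_left _ _).trans (by linarith))
  unfold amp
  calc 1 / 2 * (2 ^ j * prof (t / 2 ^ j)) ≤ 1 / 2 * (2 ^ j * (2 * (t / 2 ^ j))) := by gcongr
    _ = t := by field_simp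

theorem amp_le_scale (j : ℤ) (t : ℝ) : amp j t ≤ 2 ^ j := by
  have hj : (0 : ℝ) < 2 ^ j := by positivity
  have h1 := prof_le (t / 2 ^ j)
  unfold amp
  calc 1 / 2 * (2 ^ j * prof (t / 2 ^ j)) ≤ 1 / 2 * (2 ^ j * 2) := by gcongr
    _ = 2 ^ j := by ring

theorem amp_lip (j : ℤ) (t t' : ℝ) : |amp j t - amp j t'| ≤ |t - t'| := by
  have hj : (0 : ℝ) < 2 ^ j := by positivity
  have h1 := prof_lip (t / 2 ^ j) (t' / 2 ^ j)
  unfold amp
  rw [← mul_sub, ← mul_sub, abs_mul, abs_mul, abs_of_pos hj, abs_of_pos (by norm_num : (0:ℝ) < 1/2)]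
  calc 1 / 2 * (2 ^ j * |prof (t / 2 ^ j) - prof (t' / 2 ^ j)|)
      ≤ 1 / 2 * (2 ^ j * (2 * |t / 2 ^ j - t' / 2 ^ j|)) := by gcongr
    _ = |t - t'| := by
        rw [← sub_div, abs_div, abs_of_pos hj]
        field_simp

theorem amp_ne {j : ℤ} {t : ℝ} (h : amp j t ≠ 0) : 2 ^ j / 2 < t ∧ t < 4 * 2 ^ j := by
  have hj : (0 : ℝ) < 2 ^ j := by positivity
  have h1 : prof (t / 2 ^ j) ≠ 0 := by
    intro h0
    apply h
    unfold amp
    rw [h0]; ring
  obtain ⟨h2, h3⟩ := prof_ne h1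
  rw [lt_div_iff₀ hj] at h2
  rw [div_lt_iff₀ hj] at h3
  exact ⟨by linarith, h3⟩

theorem amp_active {j : ℤ} {t : ℝ} (h : amp j t ≠ 0) :
    j ∈ Finset.Icc (Int.log 2 t - 1) (Int.log 2 t + 1) := by
  have h1 : prof (t / 2 ^ j) ≠ 0 := by
    intro h0
    apply h
    unfold amp
    rw [h0]; ring
  have h2 : 0 < t := by
    have := (amp_ne h).1
    have hj : (0 : ℝ) < 2 ^ j := by positivity
    linarith
  exact active h2 h1

theorem amp_log {t : ℝ} (ht : 0 < t) : 2 ^ (Int.log 2 t) / 2 ≤ amp (Int.log 2 t) t := by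
  have hj : (0 : ℝ) < 2 ^ (Int.log 2 t) := by positivity
  have hlog1 : (2 : ℝ) ^ (Int.log 2 t) ≤ t := Int.zpow_log_le_self (by norm_num) ht
  have hlog2 : t < 2 * (2 : ℝ) ^ (Int.log 2 t) := by
    have := Int.lt_zpow_succ_log_self (b := 2) (by norm_num) t
    rw [zpow_add_one₀ (by norm_num)] at this
    push_cast at this
    linarith
  have h1 : 1 ≤ prof (t / 2 ^ (Int.log 2 t)) := by
    refine prof_ge ?_ ?_
    · rw [le_div_iff₀ hj, one_mul]; exact hlog1
    · rw [div_le_iff₀ hj]; exact hlog2.le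
  unfold amp
  calc (2 : ℝ) ^ (Int.log 2 t) / 2 = 1 / 2 * (2 ^ (Int.log 2 t) * 1) := by ring
    _ ≤ _ := by gcongr

/-- two different scales of one class modulo three: a factor 8 -/
theorem scale_far {i j : ℤ} (h : i % 3 = j % 3) (hij : i < j) : (8 : ℝ) * 2 ^ i ≤ 2 ^ j := by
  have h1 : i + 3 ≤ j := by omega
  calc (8 : ℝ) * 2 ^ i = 2 ^ (i + 3) := by
        rw [zpow_add₀ (by norm_num)]; norm_num; ring
    _ ≤ 2 ^ j := zpow_le_zpow_right₀ (by norm_num) h1

theorem amp_unique {i j : ℤ} {t : ℝ} (h : i % 3 = j % 3) (hi : amp i t ≠ 0) (hj : amp j t ≠ 0) :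
    i = j := by
  obtain ⟨h1, h2⟩ := amp_ne hi
  obtain ⟨h3, h4⟩ := amp_ne hj
  rcases lt_trichotomy i j with h5 | h5 | h5
  · have := scale_far h h5
    linarith
  · exact h5
  · have := scale_far h.symm h5
    linarith

section

variable {V Ω : Type} {a : V → ℝ} {J : Finset ℤ} {S : ℤ → Ω → V → Bool}

/-- the field of one class of scales -/
noncomputable def nu (a : V → ℝ) (J : Finset ℤ) (S : ℤ → Ω → V → Bool) (r : ℤ) (ω : Ω) (x : V) :
    ℝ := ∑ j ∈ J.filter (fun j => j % 3 = r), amp j (a x) * sg (S j ω x)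

theorem nu_eq {r j : ℤ} (hj : j ∈ J) (hr : j % 3 = r) {x : V} (h : ∀ i ∈ J, i % 3 = r → i ≠ j →
    amp i (a x) = 0) (ω : Ω) : nu a J S r ω x = amp j (a x) * sg (S j ω x) := by
  unfold nu
  refine Finset.sum_eq_single_of_mem j (Finset.mem_filter.2 ⟨hj, hr⟩) fun i hi hij => ?_
  rw [Finset.mem_filter] at hi
  rw [h i hi.1 hi.2 hij, zero_mul]

/-- dichotomy -/
theorem nu_cases (a : V → ℝ) (J : Finset ℤ) (r : ℤ) (x : V) :
    (∀ i ∈ J, i % 3 = r → amp i (a x) = 0) ∨ ∃ j ∈ J, j % 3 = r ∧ amp j (a x) ≠ 0 ∧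
      ∀ i ∈ J, i % 3 = r → i ≠ j → amp i (a x) = 0 := by
  by_cases h : ∀ i ∈ J, i % 3 = r → amp i (a x) = 0
  · exact Or.inl h
  · push_neg at h
    obtain ⟨j, hj, hr, hne⟩ := h
    refine Or.inr ⟨j, hj, hr, hne, fun i hi hir hij => ?_⟩
    by_contra hi0
    exact hij (amp_unique (hir.trans hr.symm) hi0 hne)

theorem nu_zero {r : ℤ} {x : V} (h : ∀ i ∈ J, i % 3 = r → amp i (a x) = 0) (ω : Ω) :
    nu a J S r ω x = 0 := by
  unfold nu
  refine Finset.sum_eq_zero fun i hi => ?_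
  rw [Finset.mem_filter] at hi
  rw [h i hi.1 hi.2, zero_mul]

theorem nu_abs (ha : ∀ x, 0 ≤ a x) (r : ℤ) (ω : Ω) (x : V) : |nu a J S r ω x| ≤ a x := by
  rcases nu_cases a J r x with h | ⟨j, hj, hr, -, h⟩
  · rw [nu_zero h, abs_zero]; exact ha x
  · rw [nu_eq hj hr h, abs_mul, sg_abs, mul_one, abs_of_nonneg (amp_nonneg _ _)]
    exact amp_le (ha x)

end

end Vale.Agent.P235.Hub
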