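/-
P235, line HUB (helper15, literal of helper309): the bounded random functions.
-/
import Vale.Agent.P235.Hub.Defs

namespace Vale.Agent.P235.Hub

open Vale.Agent.P235 Vale.Agent.P235.R2.H598

/-- [NU] -/
def NuStmt : Prop :=
  ∀ C : ℝ, 1 ≤ C → ∀ (V : Type) [Finite V] (d ρ : V → V → ℝ), IsMet d → IsL1 ρ →
    (∀ x y, d x y ≤ ρ x y) → (∀ x y, ρ x y ≤ C * d x y) →
    ∀ a : V → ℝ, (∀ x, 0 ≤ a x) → (∀ x y, a x ≤ a y + d x y) →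
    ∃ (κ : Type) (_ : Fintype κ) (q : κ → ℝ) (n : κ → V → ℝ), (∀ k, 0 ≤ q k) ∧ ∑ k, q k = 1 ∧
      (∀ k x, |n k x| ≤ a x) ∧
      (∀ x y, ∑ k, q k * |n k x - n k y| ≤ 2 * (C + 1) * d x y) ∧
      ∀ x y, min (d x y) (a x) ≤ 32 * ∑ k, q k * |n k x - n k y|

end Vale.Agent.P235.Hub
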