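/-
P235, line HUB (helper15): the two expectation bounds; `nu : NuStmt`.
-/
import Vale.Agent.P235.Hub.H15.Nu
import Vale.Agent.P235.Hub.H15.NuDefs

namespace Vale.Agent.P235.Hub

open Vale.Agent.P235 Vale.Agent.P235.R2.H598

section

variable {V Ω : Type} [Fintype Ω] {ρ : V → V → ℝ} {p : Ω → ℝ} {s : Ω → V → Bool}

theorem sum_sg {e : ℝ} {x y : V} (h1 : ∑ ω, p ω = 1)
    (hs : e = ∑ ω, p ω * (if s ω x = s ω y then 1 else -1)) :
    ∑ ω, p ω * |sg (s ω x) - sg (s ω y)| = 1 - e := by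
  have h2 : ∑ ω, p ω * |sg (s ω x) - sg (s ω y)| =
      ∑ ω, (p ω - p ω * (if s ω x = s ω y then 1 else -1)) := by
    refine Finset.sum_congr rfl fun ω _ => ?_
    rw [sg_sub]
    ring
  rw [h2, Finset.sum_sub_distrib, h1, ← hs]

theorem one_up (hp : ∀ ω, 0 ≤ p ω) (h1 : ∑ ω, p ω = 1) {e A A' : ℝ} (hA : 0 ≤ A) {x y : V}
    (hs : e = ∑ ω, p ω * (if s ω x = s ω y then 1 else -1)) :
    ∑ ω, p ω * |A * sg (s ω x) - A' * sg (s ω y)| ≤ A * (1 - e) + |A - A'| := by
  have h2 : ∑ ω, p ω * |A * sg (s ω x) - A' * sg (s ω y)| ≤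
      ∑ ω, (A * (p ω * |sg (s ω x) - sg (s ω y)|) + p ω * |A - A'|) := by
    refine Finset.sum_le_sum fun ω _ => ?_
    have := mul_le_mul_of_nonneg_left (sg_upper (s ω x) (s ω y) (p' := A') hA) (hp ω)
    linarith
  rw [Finset.sum_add_distrib, ← Finset.mul_sum, ← Finset.sum_mul, h1, sum_sg h1 hs, one_mul] at h2
  exact h2

theorem one_low (hp : ∀ ω, 0 ≤ p ω) (h1 : ∑ ω, p ω = 1) {e A A' : ℝ} (hA : 0 ≤ A) {x y : V}
    (hs : e = ∑ ω, p ω * (if s ω x = s ω y then 1 else -1)) :
    A * (1 - e) - |A - A'| ≤ ∑ ω, p ω * |A * sg (s ω x) - A' * sg (s ω y)| := by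
  have h2 : ∑ ω, (A * (p ω * |sg (s ω x) - sg (s ω y)|) - p ω * |A - A'|) ≤
      ∑ ω, p ω * |A * sg (s ω x) - A' * sg (s ω y)| := by
    refine Finset.sum_le_sum fun ω _ => ?_
    have := mul_le_mul_of_nonneg_left (sg_lower (s ω x) (s ω y) (p' := A') hA) (hp ω)
    linarith
  rw [Finset.sum_sub_distrib, ← Finset.mul_sum, ← Finset.sum_mul, h1, sum_sg h1 hs, one_mul] at h2
  exact h2

end

section

variable {V Ω : Type} [Fintype Ω] {d ρ : V → V → ℝ} {p : Ω → ℝ} {S : ℤ → Ω → V → Bool}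
  {J : Finset ℤ} {a : V → ℝ} {C : ℝ}

theorem nu_upper (hC : 1 ≤ C) (hd : IsMet d) (hρ : IsL1 ρ) (hup : ∀ x y, ρ x y ≤ C * d x y)
    (hal : ∀ x y, |a x - a y| ≤ d x y) (hp : ∀ ω, 0 ≤ p ω) (h1 : ∑ ω, p ω = 1)
    (hS : ∀ j ∈ J, ∀ x y, Real.exp (-(ρ x y / 2 ^ j)) =
      ∑ ω, p ω * (if S j ω x = S j ω y then 1 else -1)) (r : ℤ) (x y : V) :
    ∑ ω, p ω * |nu a J S r ω x - nu a J S r ω y| ≤ 2 * (C + 1) * d x y := by
  have hdn := hd.nonneg x y
  have hCd : 0 ≤ C * d x y := mul_nonneg (by linarith) hdn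
  have key : ∀ j ∈ J, (∀ ω, nu a J S r ω x = amp j (a x) * sg (S j ω x)) →
      (∀ ω, nu a J S r ω y = amp j (a y) * sg (S j ω y)) →
      ∑ ω, p ω * |nu a J S r ω x - nu a J S r ω y| ≤ 2 * (C + 1) * d x y := by
    intro j hj hx hy
    have hjp : (0 : ℝ) < 2 ^ j := by positivity
    have h2 : ∑ ω, p ω * |nu a J S r ω x - nu a J S r ω y| =
        ∑ ω, p ω * |amp j (a x) * sg (S j ω x) - amp j (a y) * sg (S j ω y)| :=
      Finset.sum_congr rfl fun ω _ => by rw [hx, hy]
    rw [h2]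
    refine (one_up hp h1 (amp_nonneg j (a x)) (hS j hj x y)).trans ?_
    have h3 := amp_lip j (a x) (a y)
    have h4 := hal x y
    have h5 := exp_upper (ρ := ρ x y) hjp
    have h6 : 0 ≤ 1 - Real.exp (-(ρ x y / 2 ^ j)) := by
      have : Real.exp (-(ρ x y / 2 ^ j)) ≤ 1 := by
        apply Real.exp_le_one_iff.mpr
        have := hρ.nonneg x y
        have : 0 ≤ ρ x y / 2 ^ j := by positivity
        linarith
      linarith
    have h7 := mul_le_mul_of_nonneg_right (amp_le_scale j (a x)) h6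
    have h8 := hup x y
    linarith
  rcases nu_cases a J r x with hx | ⟨j, hj, hjr, hxn, hx⟩
  · rcases nu_cases a J r y with hy | ⟨i, hi, hir, hyn, hy⟩
    · have h2 : ∑ ω, p ω * |nu a J S r ω x - nu a J S r ω y| = 0 := by
        refine Finset.sum_eq_zero fun ω _ => ?_
        rw [nu_zero hx, nu_zero hy, sub_self, abs_zero, mul_zero]
      rw [h2]; positivity
    · refine key i hi (fun ω => ?_) (fun ω => nu_eq hi hir hy ω)
      rw [nu_zero hx, hx i hi hir, zero_mul]
  · rcases nu_cases a J r y with hy | ⟨i, hi, hir, hyn, hy⟩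
    · refine key j hj (fun ω => nu_eq hj hjr hx ω) (fun ω => ?_)
      rw [nu_zero hy, hy j hj hjr, zero_mul]
    · by_cases hij : i = j
      · subst hij
        exact key i hi (fun ω => nu_eq hi hir hx ω) (fun ω => nu_eq hi hir hy ω)
      · have e1 : amp j (a y) = 0 := hy j hj hjr (Ne.symm hij)
        have e2 : amp i (a x) = 0 := hx i hi hir hij
        have h3 := amp_lip j (a x) (a y)
        have h4 := amp_lip i (a x) (a y)
        rw [e1, sub_zero, abs_of_nonneg (amp_nonneg _ _)] at h3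
        rw [e2, zero_sub, abs_neg, abs_of_nonneg (amp_nonneg _ _)] at h4
        have h5 := hal x y
        have h6 : ∑ ω, p ω * |nu a J S r ω x - nu a J S r ω y| ≤ ∑ ω, p ω * (2 * d x y) := by
          refine Finset.sum_le_sum fun ω _ => mul_le_mul_of_nonneg_left ?_ (hp ω)
          rw [nu_eq hj hjr hx, nu_eq hi hir hy]
          refine (abs_sub _ _).trans ?_
          rw [abs_mul, abs_mul, sg_abs, sg_abs, mul_one, mul_one, abs_of_nonneg (amp_nonneg _ _),
            abs_of_nonneg (amp_nonneg _ _)]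
          linarith
        rw [← Finset.sum_mul, h1, one_mul] at h6
        linarith

theorem nu_lower (hρ : IsL1 ρ) (hlow : ∀ x y, d x y ≤ ρ x y)
    (hp : ∀ ω, 0 ≤ p ω) (h1 : ∑ ω, p ω = 1)
    (hS : ∀ j ∈ J, ∀ x y, Real.exp (-(ρ x y / 2 ^ j)) =
      ∑ ω, p ω * (if S j ω x = S j ω y then 1 else -1)) {x y : V} (hx : 0 < a x)
    (hle : a y ≤ a x) (hJ : Int.log 2 (a x) ∈ J) :
    min (d x y) (a x) ≤ 8 * (∑ ω, p ω * |nu a J S (Int.log 2 (a x) % 3) ω x -
      nu a J S (Int.log 2 (a x) % 3) ω y| + |a x - a y|) := by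
  set j := Int.log 2 (a x) with hj
  have hjp : (0 : ℝ) < 2 ^ j := by positivity
  have hamp : 2 ^ j / 2 ≤ amp j (a x) := amp_log hx
  have hne : amp j (a x) ≠ 0 := by
    have h0 : (0 : ℝ) < 2 ^ j / 2 := by positivity
    exact (h0.trans_le hamp).ne'
  have hlog2 : a x < 2 * (2 : ℝ) ^ j := by
    have := Int.lt_zpow_succ_log_self (b := 2) (by norm_num) (a x)
    rw [zpow_add_one₀ (by norm_num)] at this
    push_cast at this
    linarith
  have hux : ∀ i ∈ J, i % 3 = j % 3 → i ≠ j → amp i (a x) = 0 := by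
    intro i _ hi hij
    by_contra h0
    exact hij (amp_unique hi h0 hne)
  have habs : 0 ≤ |a x - a y| := abs_nonneg _
  have key : (∀ ω, nu a J S (j % 3) ω y = amp j (a y) * sg (S j ω y)) →
      min (d x y) (a x) ≤ 8 * (∑ ω, p ω * |nu a J S (j % 3) ω x - nu a J S (j % 3) ω y| +
        |a x - a y|) := by
    intro hy
    have h2 : ∑ ω, p ω * |nu a J S (j % 3) ω x - nu a J S (j % 3) ω y| =
        ∑ ω, p ω * |amp j (a x) * sg (S j ω x) - amp j (a y) * sg (S j ω y)| :=
      Finset.sum_congr rfl fun ω _ => by rw [nu_eq hJ rfl hux, hy]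
    rw [h2]
    have h3 := one_low hp h1 (A' := amp j (a y)) (amp_nonneg j (a x)) (hS j hJ x y)
    have h4 := amp_lip j (a x) (a y)
    have h5 := exp_lower (ρ := ρ x y) hjp (hρ.nonneg x y)
    have h6 : 0 ≤ 1 - Real.exp (-(ρ x y / 2 ^ j)) := by
      have : Real.exp (-(ρ x y / 2 ^ j)) ≤ 1 := by
        apply Real.exp_le_one_iff.mpr
        have := hρ.nonneg x y
        have : 0 ≤ ρ x y / 2 ^ j := by positivity
        linarith
      linarith
    have h7 := mul_le_mul_of_nonneg_right hamp h6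
    have h8 : min (d x y) (a x) / 2 ≤ min (ρ x y) (2 ^ j) := by
      have h10 := hρ.nonneg x y
      refine le_min ?_ ?_
      · have h9 := min_le_left (d x y) (a x)
        have h11 := hlow x y
        rcases le_total 0 (d x y) with h12 | h12
        · linarith
        · linarith
      · have h9 := min_le_right (d x y) (a x)
        linarith
    linarith
  rcases nu_cases a J (j % 3) y with hy | ⟨i, hi, hir, hyn, hy⟩
  · refine key fun ω => ?_
    rw [nu_zero hy, hy j hJ rfl, zero_mul]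
  · by_cases hij : i = j
    · subst hij
      exact key fun ω => nu_eq hi hir hy ω
    · have h2 := (amp_ne hyn).1
      have h3 : i < j := by
        rcases lt_trichotomy i j with h | h | h
        · exact h
        · exact absurd h hij
        · have := scale_far hir.symm h
          linarith
      have h4 := scale_far hir h3
      have h5 := amp_le_scale i (a y)
      have h6 : ∑ ω, p ω * (2 ^ j * (3 / 8)) ≤
          ∑ ω, p ω * |nu a J S (j % 3) ω x - nu a J S (j % 3) ω y| := by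
        refine Finset.sum_le_sum fun ω _ => mul_le_mul_of_nonneg_left ?_ (hp ω)
        rw [nu_eq hJ rfl hux, nu_eq hi hir hy]
        have h7 := abs_sub_abs_le_abs_sub (amp j (a x) * sg (S j ω x)) (amp i (a y) * sg (S i ω y))
        rw [abs_mul, abs_mul, sg_abs, sg_abs, mul_one, mul_one, abs_of_nonneg (amp_nonneg _ _),
            abs_of_nonneg (amp_nonneg _ _)] at h7
        linarith
      rw [← Finset.sum_mul, h1, one_mul] at h6
      have h7 := min_le_right (d x y) (a x)
      linarith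

end

/-- the random functions `n k`, bounded by `a` -/
theorem nuThm : NuStmt := by
  intro C hC V _ d ρ hd hρ hlow hup a ha hal0
  classical
  have : Fintype V := Fintype.ofFinite V
  have hal : ∀ x y, |a x - a y| ≤ d x y := by
    intro x y
    rw [abs_le]
    have h1 := hal0 x y
    have h2 := hal0 y x
    rw [hd.symm y x] at h2
    constructor <;> linarith
  let J : Finset ℤ := Finset.univ.image fun x : V => Int.log 2 (a x)
  have hJ : ∀ x : V, Int.log 2 (a x) ∈ J := fun x =>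
    Finset.mem_image_of_mem _ (Finset.mem_univ x)
  obtain ⟨Ω, _, p, S, hp, h1, hS⟩ := joint hρ J
  have hE : ∀ (r : ℤ) x y, 0 ≤ ∑ ω, p ω * |nu a J S r ω x - nu a J S r ω y| := fun r x y =>
    Finset.sum_nonneg fun ω _ => mul_nonneg (hp ω) (abs_nonneg _)
  let n : Fin 4 × Ω → V → ℝ := fun k x => if k.1 = 3 then a x else nu a J S (k.1 : ℕ) k.2 x
  have hsum : ∀ f : ℝ → ℝ, ∀ x y, ∑ k : Fin 4 × Ω, p k.2 / 4 * |n k x - n k y| =
      1 / 4 * (∑ ω, p ω * |nu a J S 0 ω x - nu a J S 0 ω y| +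
        ∑ ω, p ω * |nu a J S 1 ω x - nu a J S 1 ω y| +
        ∑ ω, p ω * |nu a J S 2 ω x - nu a J S 2 ω y| + |a x - a y|) := by
    intro _ x y
    rw [Fintype.sum_prod_type, Fin.sum_univ_four]
    have e0 : ∑ ω : Ω, p ((0 : Fin 4), ω).2 / 4 * |n (0, ω) x - n (0, ω) y| =
        1 / 4 * ∑ ω, p ω * |nu a J S 0 ω x - nu a J S 0 ω y| := by
      rw [Finset.mul_sum]
      refine Finset.sum_congr rfl fun ω _ => ?_
      show p ω / 4 * |nu a J S 0 ω x - nu a J S 0 ω y| = _
      ring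
    have e1 : ∑ ω : Ω, p ((1 : Fin 4), ω).2 / 4 * |n (1, ω) x - n (1, ω) y| =
        1 / 4 * ∑ ω, p ω * |nu a J S 1 ω x - nu a J S 1 ω y| := by
      rw [Finset.mul_sum]
      refine Finset.sum_congr rfl fun ω _ => ?_
      show p ω / 4 * |nu a J S 1 ω x - nu a J S 1 ω y| = _
      ring
    have e2 : ∑ ω : Ω, p ((2 : Fin 4), ω).2 / 4 * |n (2, ω) x - n (2, ω) y| =
        1 / 4 * ∑ ω, p ω * |nu a J S 2 ω x - nu a J S 2 ω y| := by
      rw [Finset.mul_sum]
      refine Finset.sum_congr rfl fun ω _ => ?_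
      show p ω / 4 * |nu a J S 2 ω x - nu a J S 2 ω y| = _
      ring
    have e3 : ∑ ω : Ω, p ((3 : Fin 4), ω).2 / 4 * |n (3, ω) x - n (3, ω) y| =
        1 / 4 * |a x - a y| := by
      have h2 : ∀ ω : Ω, p ((3 : Fin 4), ω).2 / 4 * |n (3, ω) x - n (3, ω) y| =
          p ω * (1 / 4 * |a x - a y|) := by
        intro ω
        show p ω / 4 * |a x - a y| = _
        ring
      rw [Finset.sum_congr rfl fun ω _ => h2 ω, ← Finset.sum_mul, h1, one_mul]
    rw [e0, e1, e2, e3]
    ring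
  have hle4 : ∀ (r : ℤ) x y, r = 0 ∨ r = 1 ∨ r = 2 →
      ∑ ω, p ω * |nu a J S r ω x - nu a J S r ω y| + |a x - a y| ≤
        4 * ∑ k : Fin 4 × Ω, p k.2 / 4 * |n k x - n k y| := by
    intro r x y hr
    rw [hsum id]
    have h2 := hE 0 x y
    have h3 := hE 1 x y
    have h4 := hE 2 x y
    rcases hr with rfl | rfl | rfl <;> linarith
  refine ⟨Fin 4 × Ω, inferInstance, fun k => p k.2 / 4, n, fun k => ?_, ?_, ?_, ?_, ?_⟩
  · exact div_nonneg (hp _) (by norm_num)
  · rw [Fintype.sum_prod_type, Fin.sum_univ_four]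
    simp only [← Finset.sum_div, h1]
    norm_num
  · rintro ⟨i, ω⟩ x
    by_cases hi : i = 3
    · subst hi
      show |a x| ≤ a x
      rw [abs_of_nonneg (ha x)]
    · have : n (i, ω) x = nu a J S (i : ℕ) ω x := if_neg hi
      rw [this]
      exact nu_abs ha _ ω x
  · intro x y
    rw [hsum id]
    have h2 := nu_upper hC hd hρ hup hal hp h1 hS 0 x y
    have h3 := nu_upper hC hd hρ hup hal hp h1 hS 1 x y
    have h4 := nu_upper hC hd hρ hup hal hp h1 hS 2 x y
    have h5 := hal x y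
    have h6 := hd.nonneg x y
    have h7 : d x y ≤ 2 * (C + 1) * d x y := by
      have : 0 ≤ C * d x y := mul_nonneg (by linarith) h6
      linarith
    linarith
  · have hmain : ∀ x y, a y ≤ a x → min (d x y) (a x) ≤
        32 * ∑ k : Fin 4 × Ω, p k.2 / 4 * |n k x - n k y| := by
      intro x y hle
      have h0 : 0 ≤ ∑ k : Fin 4 × Ω, p k.2 / 4 * |n k x - n k y| :=
        Finset.sum_nonneg fun k _ => mul_nonneg (div_nonneg (hp _) (by norm_num)) (abs_nonneg _)
      rcases (ha x).eq_or_lt with hx | hx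
      · have h2 := min_le_right (d x y) (a x)
        linarith
      · have h2 := nu_lower hρ hlow hp h1 hS hx hle (hJ x)
        have h3 := hle4 (Int.log 2 (a x) % 3) x y (by omega)
        linarith
    intro x y
    rcases le_total (a y) (a x) with h | h
    · exact hmain x y h
    · have h2 := hmain y x h
      have h3 : ∑ k : Fin 4 × Ω, p k.2 / 4 * |n k y - n k x| =
          ∑ k : Fin 4 × Ω, p k.2 / 4 * |n k x - n k y| :=
        Finset.sum_congr rfl fun k _ => by rw [abs_sub_comm]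
      rw [h3, hd.symm y x] at h2
      exact (min_le_min le_rfl h).trans h2

end Vale.Agent.P235.Hub
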